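import Vale.Agent.P062.CertB11Part0
import Vale.Agent.P062.CertB11Part1
import Vale.Agent.P062.CertB11Part2
import Vale.Agent.P062.CertB11Part3
import Vale.Agent.P062.CertB11Part4
import Vale.Agent.P062.CertB11Part5
import Vale.Agent.P062.CertB11Part6
import Vale.Agent.P062.CertB11Part7
import Vale.Agent.P062.CertB11Part8
import Vale.Agent.P062.CertB11Part9
import Vale.Agent.P062.CertB11Part10
import Vale.Agent.P062.CertB11Part11
import Vale.Agent.P062.CertB11Part12
import Vale.Agent.P062.CertB11Part13
import Vale.Agent.P062.CertB11Part14
import Vale.Agent.P062.CertB11Part15
import Vale.Agent.P062.CertB11Part16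
import Vale.Agent.P062.CertB11Part17
import Vale.Agent.P062.CertB11Part18
import Vale.Agent.P062.CertB11Part19
import Vale.Agent.P062.CertB11Part20
import Vale.Agent.P062.CertB11Part21
import Vale.Agent.P062.CertB11Part22
import Vale.Agent.P062.CertB11Part23
import Vale.Agent.P062.CertB11Part24
import Vale.Agent.P062.CertB11Part25
import Vale.Agent.P062.CertB11Part26
import Vale.Agent.P062.CertB11Part27

/-! P062: certificate CertB11 -/

namespace Vale.Agent.P062.CertB11

def zone : ℕ := 15320302428883966135583191705825731694251934658321517746620098146536674751368

theorem pair : WPair centreMask zone :=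
  WPair.of_eq
    (((((((((((((((((((((((((((((AInv.start CertB11Part0.pair).add
      CertB11Part1.pair).add
      CertB11Part2.pair).add
      CertB11Part3.pair).add
      CertB11Part4.pair).add
      CertB11Part5.pair).add
      CertB11Part6.pair).add
      CertB11Part7.pair).add
      CertB11Part8.pair).add
      CertB11Part9.pair).add
      CertB11Part10.pair).add
      CertB11Part11.pair).add
      CertB11Part12.pair).add
      CertB11Part13.pair).add
      CertB11Part14.pair).add
      CertB11Part15.pair).add
      CertB11Part16.pair).add
      CertB11Part17.pair).add
      CertB11Part18.pair).add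
      CertB11Part19.pair).add
      CertB11Part20.pair).add
      CertB11Part21.pair).add
      CertB11Part22.pair).add
      CertB11Part23.pair).add
      CertB11Part24.pair).add
      CertB11Part25.pair).add
      CertB11Part26.pair).add
      CertB11Part27.pair).close 125 (by decide +kernel))
    (by decide +kernel) (by decide +kernel)

end Vale.Agent.P062.CertB11
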