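import Vale.Agent.P062.Game
import Mathlib.Data.Nat.Bitwise

/-!
# P062: a kernel-checkable certificate format for winning positions

Cell number `j` is `(j % 16, j / 16)`; its bit is `perm j`, sets of cells are bit masks. The
permutation spreads neighbouring cells, as the kernel hashes a literal by its last 64 bits only. A certificate proves pairs
`(m, z)`: Maker to move wins whenever it owns `m` and Breaker owns no cell of `z`.

A certificate is a list of instructions `v`, with opcode `v % 4` and operand `v / 4`: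
* `0`: add the earlier pair with this number to the current bunch of replies;
* `1`: close the bunch with this move of Maker, producing a new pair;
* `2`: produce the pair of a completed copy with this code.
-/

namespace Vale.Agent.P062

open Finset

/-- The cell with a given number. Numbers below 256 fill the central square of side 16, the
numbers below 4096 the square of side 64 whose lower left corner is `(-24, -24)`. -/
def gridCell (j : ℕ) : Cell :=
  ((((j % 16 + 16 * (j / 256 % 4) + 24) % 64 : ℕ) : ℤ) - 24,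
    (((j / 16 % 16 + 16 * (j / 1024 % 4) + 24) % 64 : ℕ) : ℤ) - 24 + 64 * ((j / 4096 : ℕ) : ℤ))

/-- The number of the cell `(X - 24, Y - 24)` for `X, Y < 64`. -/
def cellNum (X Y : ℕ) : ℕ :=
  let u := Nat.land (Nat.add X 40) 63
  let v := Nat.land (Nat.add Y 40) 63
  Nat.add (Nat.add (Nat.land u 15) (Nat.shiftLeft (Nat.land v 15) 4))
    (Nat.add (Nat.shiftLeft (Nat.shiftRight u 4) 8) (Nat.shiftLeft (Nat.shiftRight v 4) 10))

lemma gridCell_cellNum {X Y : ℕ} (hX : X < 64) (hY : Y < 64) :
    gridCell (cellNum X Y) = ((X : ℤ) - 24, (Y : ℤ) - 24) := by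
  have e : cellNum X Y = (X + 40) % 64 % 16 + (Y + 40) % 64 % 16 * 16 +
      ((X + 40) % 64 / 16 * 256 + (Y + 40) % 64 / 16 * 1024) := by
    change ((X + 40) &&& (2 ^ 6 - 1) &&& (2 ^ 4 - 1)) + ((Y + 40) &&& (2 ^ 6 - 1) &&& (2 ^ 4 - 1)) <<< 4 +
      ((((X + 40) &&& (2 ^ 6 - 1)) >>> 4) <<< 8 + (((Y + 40) &&& (2 ^ 6 - 1)) >>> 4) <<< 10) = _
    simp only [Nat.and_two_pow_sub_one_eq_mod, Nat.shiftLeft_eq, Nat.shiftRight_eq_div_pow]
  have digits : ∀ a b c d : ℕ, a < 16 → b < 16 → c < 4 → d < 4 →
      (a + b * 16 + (c * 256 + d * 1024)) % 16 = a ∧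
        (a + b * 16 + (c * 256 + d * 1024)) / 16 % 16 = b ∧
        (a + b * 16 + (c * 256 + d * 1024)) / 256 % 4 = c ∧
        (a + b * 16 + (c * 256 + d * 1024)) / 1024 % 4 = d ∧
        (a + b * 16 + (c * 256 + d * 1024)) / 4096 = 0 := fun a b c d _ _ _ _ => by omega
  obtain ⟨h1, h2, h3, h4, h5⟩ := digits ((X + 40) % 64 % 16) ((Y + 40) % 64 % 16)
    ((X + 40) % 64 / 16) ((Y + 40) % 64 / 16) (Nat.mod_lt _ (by norm_num)) (Nat.mod_lt _ (by norm_num))
    (Nat.div_lt_of_lt_mul (Nat.mod_lt _ (by norm_num))) (Nat.div_lt_of_lt_mul (Nat.mod_lt _ (by norm_num)))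
  have back : ∀ Z : ℕ, Z < 64 → ((Z + 40) % 64 + 24) % 64 = Z := fun Z _ => by omega
  simp only [gridCell, e, h1, h2, h3, h4, h5, Nat.mod_add_div, back X hX, back Y hY,
    Nat.cast_zero, mul_zero, add_zero]

lemma gridCell_injective : Function.Injective gridCell := by
  intro i j h
  simp only [gridCell, Prod.mk.injEq] at h
  have key : ∀ a a' c c' : ℕ, a < 16 → a' < 16 → c < 4 → c' < 4 →
      (a + 16 * c + 24) % 64 = (a' + 16 * c' + 24) % 64 → a = a' ∧ c = c' :=
    fun a a' c c' _ _ _ _ _ => by omega
  have h1 : (i % 16 + 16 * (i / 256 % 4) + 24) % 64 = (j % 16 + 16 * (j / 256 % 4) + 24) % 64 := by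
    omega
  have h2 : (i / 16 % 16 + 16 * (i / 1024 % 4) + 24) % 64 =
      (j / 16 % 16 + 16 * (j / 1024 % 4) + 24) % 64 ∧ i / 4096 = j / 4096 := by
    have := Nat.mod_lt (i / 16 % 16 + 16 * (i / 1024 % 4) + 24) (by norm_num : 64 > 0)
    have := Nat.mod_lt (j / 16 % 16 + 16 * (j / 1024 % 4) + 24) (by norm_num : 64 > 0)
    generalize (i / 16 % 16 + 16 * (i / 1024 % 4) + 24) % 64 = y at *
    generalize (j / 16 % 16 + 16 * (j / 1024 % 4) + 24) % 64 = y' at *
    generalize i / 4096 = k at *
    generalize j / 4096 = k' at *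
    obtain ⟨-, h⟩ := h
    omega
  obtain ⟨a1, a2⟩ := key _ _ _ _ (Nat.mod_lt _ (by norm_num)) (Nat.mod_lt _ (by norm_num))
    (Nat.mod_lt _ (by norm_num)) (Nat.mod_lt _ (by norm_num)) h1
  obtain ⟨b1, b2⟩ := key _ _ _ _ (Nat.mod_lt _ (by norm_num)) (Nat.mod_lt _ (by norm_num))
    (Nat.mod_lt _ (by norm_num)) (Nat.mod_lt _ (by norm_num)) h2.1
  have d : ∀ n : ℕ, n = n % 16 + 16 * (n / 16 % 16) + 256 * (n / 256 % 4) + 1024 * (n / 1024 % 4) +
      4096 * (n / 4096) := fun n => by omega
  rw [d i, d j, a1, a2, b1, b2, h2.2]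

/-- The bit of the cell with a given number. -/
def perm (j : ℕ) : ℕ := Nat.add (Nat.land (Nat.mul j 171) 255) (Nat.shiftLeft (Nat.shiftRight j 8) 8)

/-- The cell belonging to a bit. -/
def cell (i : ℕ) : Cell := gridCell (i * 3 % 256 + 256 * (i / 256))

lemma perm_def (j : ℕ) : perm j = j * 171 % 256 + 256 * (j / 256) := by
  change (j * 171 &&& (2 ^ 8 - 1)) + (j >>> 8) <<< 8 = _
  rw [Nat.and_two_pow_sub_one_eq_mod, Nat.shiftLeft_eq, Nat.shiftRight_eq_div_pow]
  ring

lemma cell_perm (j : ℕ) : cell (perm j) = gridCell j := by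
  simp only [cell, perm_def]
  congr 1
  have h1 : (j * 171 % 256 + 256 * (j / 256)) / 256 = j / 256 := by omega
  have h2 : (j * 171 % 256 + 256 * (j / 256)) * 3 % 256 = j * 171 % 256 * 3 % 256 := by omega
  have h3 : j * 171 % 256 * 3 % 256 = j * (171 * 3) % 256 := by
    rw [Nat.mod_mul_mod, mul_assoc]
  omega

lemma cell_injective : Function.Injective cell := by
  intro i j h
  have h' := gridCell_injective h
  have key : ∀ n : ℕ, n % 256 = n * 3 % 256 * 171 % 256 := fun n => by
    rw [Nat.mod_mul_mod, mul_assoc]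
    omega
  have e : i * 3 % 256 = j * 3 % 256 ∧ i / 256 = j / 256 := by omega
  have := key i
  rw [e.1, ← key j] at this
  omega

lemma cell_ne_far (i : ℕ) : cell i ≠ (-100, 0) := by
  intro h
  simp only [cell, gridCell, Prod.mk.injEq] at h
  omega

/-- All cells of the mask belong to the set. -/
def MaskSub (m : ℕ) (P : Finset Cell) : Prop := ∀ i, m.testBit i = true → cell i ∈ P

/-- Maker to move wins if it owns `m` and Breaker owns no cell of `z`. -/
def WPair (m z : ℕ) : Prop :=
  ∀ P Q : Finset Cell, Disjoint P Q → MaskSub m P →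
    (∀ i, z.testBit i = true → cell i ∉ Q) → Win P Q

/-- The meaning of a bunch of replies. -/
def AInv (uM uZ iZ : ℕ) : Prop :=
  ∀ b : Cell, (∀ i, iZ.testBit i = true → cell i ≠ b) → ∀ P Q : Finset Cell, Disjoint P Q →
    MaskSub uM P → (∀ i, uZ.testBit i = true → cell i ∈ Q → cell i = b) → Win P Q

lemma AInv.start {m z : ℕ} (h : WPair m z) : AInv m z z := fun b hb P Q hd hm hz =>
  h P Q hd hm fun i hi hQ => hb i hi (hz i hi hQ)

lemma AInv.add {uM uZ iZ m z : ℕ} (ha : AInv uM uZ iZ) (h : WPair m z) :
    AInv (uM ||| m) (uZ ||| z) (iZ &&& z) := by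
  intro b hb P Q hd hm hz
  have hm1 : MaskSub uM P := fun i hi => hm i (by simp [hi])
  have hm2 : MaskSub m P := fun i hi => hm i (by simp [hi])
  by_cases h1 : ∀ i, z.testBit i = true → cell i ≠ b
  · exact h P Q hd hm2 fun i hi hQ => h1 i hi (hz i (by simp [hi]) hQ)
  · push Not at h1
    obtain ⟨i₀, hi₀, rfl⟩ := h1
    refine ha _ (fun i hi he => ?_) P Q hd hm1 fun i hi hQ => hz i (by simp [hi]) hQ
    have hinj : i = i₀ := cell_injective he
    subst hinj
    exact hb i (by simp [hi, hi₀]) rfl

lemma AInv.close {uM uZ iZ : ℕ} (ha : AInv uM uZ iZ) (c : ℕ)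
    (h : iZ ||| (uM ||| 1 <<< c) = uM ||| 1 <<< c) :
    WPair ((uM ||| 1 <<< c) ^^^ (1 <<< c)) (uZ ||| 1 <<< c) := by
  have hbit : ∀ i, (1 <<< c).testBit i = decide (c = i) := fun i => by
    rw [Nat.one_shiftLeft, Nat.testBit_two_pow]
  intro P Q hd hm hz
  have hz' : ∀ i, uZ.testBit i = true → cell i ∉ Q := fun i hi => hz i (by simp [hi])
  have hM : MaskSub uM (insert (cell c) P) := fun i hi => by
    rcases eq_or_ne c i with rfl | hne
    · exact mem_insert_self _ _
    · exact mem_insert_of_mem (hm i (by simp [hi, hbit, hne]))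
  by_cases hc : cell c ∈ P
  · rw [insert_eq_of_mem hc] at hM
    exact ha (-100, 0) (fun i _ => cell_ne_far i) P Q hd hM fun i hi hQ => absurd hQ (hz' i hi)
  have hcQ : cell c ∉ Q := hz c (by simp [hbit])
  refine Win.move (cell c) hc hcQ fun b hbP hbQ => ha b (fun i hi he => hbP ?_) _ _ ?_ hM ?_
  · have := congrArg (fun n => n.testBit i) h
    simp only [Nat.testBit_or, hi, Bool.true_or, hbit] at this
    rcases eq_or_ne c i with rfl | hne
    · exact he ▸ mem_insert_self _ _
    · simp [hne] at this
      exact he ▸ hM i this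
  · rw [Finset.disjoint_insert_right]
    exact ⟨hbP, Finset.disjoint_insert_left.2 ⟨hcQ, hd⟩⟩
  · intro i hi hQ
    rcases mem_insert.1 hQ with h' | h'
    · exact h'
    · exact absurd h' (hz' i hi)

lemma WPair.of_eq {m z m' z' : ℕ} (h : WPair m z) (hm : m = m') (hz : z = z') : WPair m' z' :=
  hm ▸ hz ▸ h

/-- Number of the cell `(p, q)` of the copy with orientation `k` in the lower left corner. -/
def copyIdx (k p q : ℕ) : ℕ :=
  if k.testBit 0 then
    (if k.testBit 1 then 1 - q else q) + 16 * (if k.testBit 2 then 4 - p else p)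
  else
    (if k.testBit 1 then 4 - p else p) + 16 * (if k.testBit 2 then 1 - q else q)

/-- The numbers of the six cells of the eight copies in the lower left corner, in bytes. -/
def shapes : ℕ := 0x1011213141000111121314011110203040040313121110403031211101101101020304413130201000141303020100

/-- Number of cell `n` of the copy with orientation `k` in the lower left corner. -/
def offset (k n : ℕ) : ℕ :=
  Nat.land (Nat.shiftRight shapes (Nat.mul 8 (Nat.add (Nat.mul 6 k) n))) 255

/-- Number of cell `n` of the copy with orientation `k` moved by the corner code `i`. -/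
def copyCell (k n i : ℕ) : ℕ :=
  cellNum (Nat.add (Nat.land i 63) (Nat.land (offset k n) 15))
    (Nat.add (Nat.shiftRight i 6) (Nat.shiftRight (offset k n) 4))

/-- The mask of the copy with orientation `k` moved by the corner code `i`. -/
def copyMask (k i : ℕ) : ℕ :=
  let bit := fun n => Nat.shiftLeft 1 (perm (copyCell k n i))
  Nat.lor (Nat.lor (Nat.lor (bit 0) (bit 1)) (Nat.lor (bit 2) (bit 3))) (Nat.lor (bit 4) (bit 5))

lemma offset_eq : ∀ k < 8, [offset k 0, offset k 1, offset k 2, offset k 3, offset k 4, offset k 5] =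
    [copyIdx k 0 0, copyIdx k 1 0, copyIdx k 2 0, copyIdx k 3 0, copyIdx k 3 1, copyIdx k 4 1] := by
  decide +kernel

lemma gridCell_copyCell (k n i p q : ℕ) (ho : offset k n = copyIdx k p q)
    (hx : i % 64 < 60) (hy : i / 64 < 60) (hp : p ≤ 4) (hq : q ≤ 1) :
    gridCell (copyCell k n i) =
      (((i % 64 : ℕ) : ℤ) - 24 + (if k.testBit 1 then (if k.testBit 0 then 1 else 4) else 0),
        ((i / 64 : ℕ) : ℤ) - 24 + (if k.testBit 2 then (if k.testBit 0 then 4 else 1) else 0)) +
        signedPerm (k.testBit 0) (if k.testBit 1 then -1 else 1) (if k.testBit 2 then -1 else 1)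
          ((p : ℤ), (q : ℤ)) := by
  have e1 : Nat.land i 63 = i % 64 := Nat.and_two_pow_sub_one_eq_mod i 6
  have e2 : Nat.land (offset k n) 15 = offset k n % 16 := Nat.and_two_pow_sub_one_eq_mod _ 4
  have e3 : Nat.shiftRight i 6 = i / 64 := Nat.shiftRight_eq_div_pow i 6
  have e4 : Nat.shiftRight (offset k n) 4 = offset k n / 16 := Nat.shiftRight_eq_div_pow _ 4
  have hb : offset k n % 16 ≤ 4 ∧ offset k n / 16 ≤ 4 := by
    rw [ho, copyIdx]
    split_ifs <;> omega
  unfold copyCell
  rw [e1, e2, e3, e4, Nat.add_eq, Nat.add_eq, gridCell_cellNum (by omega) (by omega), ho]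
  unfold copyIdx signedPerm
  cases k.testBit 0 <;> cases k.testBit 1 <;> cases k.testBit 2 <;>
    simp only [Bool.false_eq_true, if_false, if_true] <;>
    simp only [Prod.mk_add_mk, Prod.mk.injEq] <;> constructor <;> omega

lemma wpair_copy (k i : ℕ) (hk : k < 8) (hx : i % 64 < 60) (hy : i / 64 < 60) :
    WPair (copyMask k i) 0 := by
  intro P Q _ hm _
  refine Win.now ⟨(((i % 64 : ℕ) : ℤ) - 24 + (if k.testBit 1 then (if k.testBit 0 then 1 else 4) else 0),
      ((i / 64 : ℕ) : ℤ) - 24 + (if k.testBit 2 then (if k.testBit 0 then 4 else 1) else 0)),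
    k.testBit 0, (if k.testBit 1 then -1 else 1), (if k.testBit 2 then -1 else 1),
    by split_ifs <;> simp, by split_ifs <;> simp, fun p hp => ?_⟩
  have key : ∀ n a b : ℕ, (copyMask k i).testBit (perm (copyCell k n i)) = true →
      offset k n = copyIdx k a b → a ≤ 4 → b ≤ 1 → p = ((a : ℤ), (b : ℤ)) →
      _ + signedPerm (k.testBit 0) _ _ p ∈ P := fun n a b h ho ha hb e => by
    rw [e, ← gridCell_copyCell k n i a b ho hx hy ha hb, ← cell_perm]
    exact hm _ h
  have hbit : ∀ c j : ℕ, (Nat.shiftLeft 1 c).testBit j = decide (c = j) := fun c j => by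
    rw [Nat.shiftLeft_eq', Nat.one_shiftLeft, Nat.testBit_two_pow]
  have hlor : ∀ x y j : ℕ, (Nat.lor x y).testBit j = (x.testBit j || y.testBit j) :=
    fun x y j => Nat.testBit_or x y j
  have ho := offset_eq k hk
  simp only [List.cons.injEq, and_true] at ho
  rw [Finset.mem_coe]
  simp only [snaky, Finset.mem_insert, Finset.mem_singleton] at hp
  rcases hp with h | h | h | h | h | h
  · exact key 0 0 0 (by simp [copyMask, hbit, hlor]) ho.1 (by norm_num) (by norm_num) (by simpa using h)
  · exact key 1 1 0 (by simp [copyMask, hbit, hlor]) ho.2.1 (by norm_num) (by norm_num) (by simpa using h)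
  · exact key 2 2 0 (by simp [copyMask, hbit, hlor]) ho.2.2.1 (by norm_num) (by norm_num) (by simpa using h)
  · exact key 3 3 0 (by simp [copyMask, hbit, hlor]) ho.2.2.2.1 (by norm_num) (by norm_num)
      (by simpa using h)
  · exact key 4 3 1 (by simp [copyMask, hbit, hlor]) ho.2.2.2.2.1 (by norm_num) (by norm_num)
      (by simpa using h)
  · exact key 5 4 1 (by simp [copyMask, hbit, hlor]) ho.2.2.2.2.2 (by norm_num) (by norm_num)
      (by simpa using h)

/-- A table of proved pairs, indexed as a binary heap. The tag is the number of the pair; the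
kernel hashes a literal by its last 64 bits only, and the tags keep different tables apart. -/
inductive Tab : Type
  | nil : Tab
  | node (tag m z : ℕ) (l r : Tab) : Tab

/-- Evaluate the argument before continuing. -/
noncomputable def force (n : ℕ) (K : ℕ → Bool) : Bool :=
  Nat.rec (motive := fun _ => Bool) (K 0) (fun i _ => K (Nat.succ i)) n

lemma force_eq (n : ℕ) (K : ℕ → Bool) : force n K = K n := by
  cases n <;> rfl

/-- Case distinction on a Boolean, by the bare recursor. -/
noncomputable abbrev bif' (b : Bool) (t f : Bool) : Bool :=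
  Bool.rec (motive := fun _ => Bool) f t b

/-- Look up entry `i` and continue with it. -/
noncomputable def getK (t : Tab) : ℕ → (ℕ → ℕ → Bool) → Bool :=
  Tab.rec (motive := fun _ => ℕ → (ℕ → ℕ → Bool) → Bool) (fun _ _ => false)
    (fun _ m z _ _ gl gr i K =>
      Nat.rec (motive := fun _ => Bool) (K m z)
        (fun j _ => Bool.rec (motive := fun _ => Bool) (gr (Nat.shiftRight j 1) K)
          (gl (Nat.shiftRight j 1) K) (Nat.beq (Nat.land j 1) 0)) i) t

/-- Store `(m, z)` at entry `i` and continue with the new table. -/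
noncomputable def insK (t : Tab) : ℕ → ℕ → ℕ → ℕ → (Tab → Bool) → Bool :=
  Tab.rec (motive := fun _ => ℕ → ℕ → ℕ → ℕ → (Tab → Bool) → Bool)
    (fun _ g m z K => K (Tab.node g m z Tab.nil Tab.nil))
    (fun e a b l r il ir i g m z K =>
      Nat.rec (motive := fun _ => Bool) (K (Tab.node g m z l r))
        (fun j _ => Bool.rec (motive := fun _ => Bool)
          (ir (Nat.shiftRight j 1) g m z fun r' => K (Tab.node e a b l r'))
          (il (Nat.shiftRight j 1) g m z fun l' => K (Tab.node e a b l' r))
          (Nat.beq (Nat.land j 1) 0)) i) t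

/-- The type of the state transformers. -/
abbrev Next : Type := Tab → ℕ → Bool → ℕ → ℕ → ℕ → ℕ → ℕ → Bool

/-- Add entry `n` to the bunch. -/
noncomputable def stepRef (n : ℕ) (next : Next) (T : Tab) (s : ℕ) (op : Bool)
    (uM uZ iZ lm lz : ℕ) : Bool :=
  getK T n fun m z =>
    bif' op
      (force (Nat.lor uM m) fun a => force (Nat.lor uZ z) fun b => force (Nat.land iZ z) fun e =>
        next T s true a b e lm lz)
      (next T s true m z z lm lz)

/-- Close the bunch with the move `c`. -/
noncomputable def stepClose (c : ℕ) (next : Next) (T : Tab) (s : ℕ) (op : Bool)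
    (uM uZ iZ : ℕ) : Bool :=
  bif' op
    (force (Nat.shiftLeft 1 c) fun p => force (Nat.lor uM p) fun a =>
      bif' (Nat.beq (Nat.lor iZ a) a)
        (force (Nat.xor a p) fun m => force (Nat.lor uZ p) fun z =>
          force (Nat.succ s) fun s' => insK T s s m z fun T' => next T' s' false 0 0 0 m z)
        false)
    false

/-- A completed copy. -/
noncomputable def stepLeaf (n : ℕ) (next : Next) (T : Tab) (s : ℕ) (op : Bool) : Bool :=
  bif' op false
    (force (Nat.shiftRight n 3) fun i =>
      bif' (Nat.ble (Nat.land i 63) 59 && Nat.ble (Nat.shiftRight i 6) 59)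
        (force (copyMask (Nat.land n 7) i) fun m =>
          force (Nat.succ s) fun s' => insK T s s m 0 fun T' => next T' s' false 0 0 0 m 0)
        false)

/-- The state transformer of one instruction. -/
noncomputable def step (v : ℕ) (next : Next) : Next := fun T s op uM uZ iZ lm lz =>
  Nat.rec (motive := fun _ => Bool) (stepRef (Nat.shiftRight v 2) next T s op uM uZ iZ lm lz)
    (fun j _ => Nat.rec (motive := fun _ => Bool)
      (stepClose (Nat.shiftRight v 2) next T s op uM uZ iZ)
      (fun _ _ => stepLeaf (Nat.shiftRight v 2) next T s op) j)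
    (Nat.land v 3)

/-- Run one block of a certificate, then continue with `fin`. -/
noncomputable def runList (L : List ℕ) (fin : Next) : Next :=
  List.rec (motive := fun _ => Next) fin (fun v _ next => step v next) L

/-- Run a certificate given in blocks and compare its last pair with `(m, z)`. -/
noncomputable def run (L : List (List ℕ)) (m z : ℕ) : Next :=
  List.rec (motive := fun _ => Next)
    (fun _ s op _ _ _ lm lz =>
      bif' op false (bif' (Nat.beq s 0) false (bif' (Nat.beq lm m) (Nat.beq lz z) false)))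
    (fun l _ next => runList l next) L

/-- Every pair in the table is proved. -/
def Tab.Sound : Tab → Prop
  | Tab.nil => True
  | Tab.node _ m z l r => WPair m z ∧ l.Sound ∧ r.Sound

lemma getK_spec : ∀ {t : Tab}, t.Sound → ∀ {i : ℕ} {K : ℕ → ℕ → Bool}, getK t i K = true →
    ∃ m z, WPair m z ∧ K m z = true := by
  intro t
  induction t with
  | nil => intro _ i K h; simp [getK] at h
  | node e a b l r il ir =>
    intro ht i K h
    rcases i with _ | j
    · exact ⟨a, b, ht.1, h⟩
    change Bool.rec (motive := fun _ => Bool) (getK r (Nat.shiftRight j 1) K)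
      (getK l (Nat.shiftRight j 1) K) (Nat.beq (Nat.land j 1) 0) = true at h
    cases h1 : Nat.beq (Nat.land j 1) 0 <;> rw [h1] at h
    · exact ir ht.2.2 h
    · exact il ht.2.1 h

lemma insK_spec : ∀ {t : Tab}, t.Sound → ∀ {i g m z : ℕ} {K : Tab → Bool}, WPair m z →
    insK t i g m z K = true → ∃ t', t'.Sound ∧ K t' = true := by
  intro t
  induction t with
  | nil => intro _ i g m z K hw h; refine ⟨_, ?_, h⟩; exact ⟨hw, trivial, trivial⟩
  | node e a b l r il ir =>
    intro ht i g m z K hw h
    rcases i with _ | j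
    · refine ⟨_, ?_, h⟩; exact ⟨hw, ht.2.1, ht.2.2⟩
    change Bool.rec (motive := fun _ => Bool)
      (insK r (Nat.shiftRight j 1) g m z fun r' => K (Tab.node e a b l r'))
      (insK l (Nat.shiftRight j 1) g m z fun l' => K (Tab.node e a b l' r))
      (Nat.beq (Nat.land j 1) 0) = true at h
    cases h1 : Nat.beq (Nat.land j 1) 0 <;> rw [h1] at h
    · obtain ⟨r', hr', hK⟩ := ir ht.2.2 hw h
      refine ⟨_, ?_, hK⟩; exact ⟨ht.1, ht.2.1, hr'⟩
    · obtain ⟨l', hl', hK⟩ := il ht.2.1 hw h
      refine ⟨_, ?_, hK⟩; exact ⟨ht.1, hl', ht.2.2⟩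

/-- What a state of the checker knows. -/
def Good (next : Next) (R : Prop) : Prop :=
  ∀ {T : Tab} {s : ℕ} {op : Bool} {uM uZ iZ lm lz : ℕ}, T.Sound →
    (op = true → AInv uM uZ iZ) → (s ≠ 0 → WPair lm lz) →
    next T s op uM uZ iZ lm lz = true → R

lemma step_good (v : ℕ) {next : Next} {R : Prop} (hn : Good next R) : Good (step v next) R := by
  intro T s op uM uZ iZ lm lz hT ha hs h
  unfold step at h
  cases h0 : Nat.land v 3 with
  | zero =>
    rw [h0] at h
    change stepRef (Nat.shiftRight v 2) next T s op uM uZ iZ lm lz = true at h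
    obtain ⟨m, z, hw, hK⟩ := getK_spec hT h
    cases op
    · exact hn hT (fun _ => AInv.start hw) hs hK
    · simp only [force_eq] at hK
      exact hn hT (fun _ => (ha rfl).add hw) hs hK
  | succ j =>
    rw [h0] at h
    cases j with
    | zero =>
      change stepClose (Nat.shiftRight v 2) next T s op uM uZ iZ = true at h
      cases op
      · exact absurd h (by simp [stepClose])
      simp only [stepClose, force_eq] at h
      cases h2 : Nat.beq (Nat.lor iZ (Nat.lor uM (Nat.shiftLeft 1 (Nat.shiftRight v 2))))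
          (Nat.lor uM (Nat.shiftLeft 1 (Nat.shiftRight v 2))) <;> rw [h2] at h
      · simp at h
      have hw := (ha rfl).close (Nat.shiftRight v 2) (Nat.eq_of_beq_eq_true h2)
      obtain ⟨T', hT', hK⟩ := insK_spec hT hw h
      exact hn hT' (fun e => absurd e (by simp)) (fun _ => hw) hK
    | succ j =>
      change stepLeaf (Nat.shiftRight v 2) next T s op = true at h
      cases op
      · simp only [stepLeaf, force_eq] at h
        cases h2 : (Nat.ble (Nat.land (Nat.shiftRight (Nat.shiftRight v 2) 3) 63) 59 &&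
            Nat.ble (Nat.shiftRight (Nat.shiftRight (Nat.shiftRight v 2) 3) 6) 59) <;> rw [h2] at h
        · simp at h
        rw [Bool.and_eq_true] at h2
        have hk : Nat.land (Nat.shiftRight v 2) 7 < 8 :=
          Nat.lt_succ_of_le (Nat.and_le_right)
        have hx := Nat.le_of_ble_eq_true h2.1
        have hy := Nat.le_of_ble_eq_true h2.2
        rw [show Nat.land (Nat.shiftRight (Nat.shiftRight v 2) 3) 63 = _ from
          Nat.and_two_pow_sub_one_eq_mod _ 6] at hx
        rw [show Nat.shiftRight (Nat.shiftRight (Nat.shiftRight v 2) 3) 6 = _ from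
          Nat.shiftRight_eq_div_pow _ 6] at hy
        have hw := wpair_copy _ (Nat.shiftRight (Nat.shiftRight v 2) 3) hk
          (Nat.lt_succ_of_le hx) (Nat.lt_succ_of_le hy)
        obtain ⟨T', hT', hK⟩ := insK_spec hT hw h
        exact hn hT' (fun e => absurd e (by simp)) (fun _ => hw) hK
      · exact absurd h (by simp [stepLeaf])

lemma runList_good : ∀ (L : List ℕ) {fin : Next} {R : Prop}, Good fin R → Good (runList L fin) R
  | [], _, _, h => h
  | v :: L, _, _, h => step_good v (runList_good L h)

lemma run_good (m z : ℕ) : ∀ L : List (List ℕ), Good (run L m z) (WPair m z)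
  | [] => by
    rename_i T s op uM uZ iZ lm lz; intro _ _ hs h
    cases op
    · simp only [run] at h
      cases h1 : Nat.beq s 0 <;> rw [h1] at h
      · cases h2 : Nat.beq lm m <;> rw [h2] at h
        · simp at h
        rw [← Nat.eq_of_beq_eq_true h2, ← Nat.eq_of_beq_eq_true h]
        exact hs fun e => by simp [e] at h1
      · simp at h
    · simp [run] at h
  | l :: L => runList_good l (run_good m z L)

/-- Check that a certificate proves the pair `(m, z)`. -/
noncomputable def check (L : List (List ℕ)) (m z : ℕ) : Bool :=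
  run L m z Tab.nil 0 false 0 0 0 0 0

/-- A certificate that passes the check proves its pair. -/
theorem check_sound {L : List (List ℕ)} {m z : ℕ} (h : check L m z = true) : WPair m z :=
  run_good m z L (T := Tab.nil) trivial (fun e => absurd e (by simp)) (fun e => absurd rfl e) h

end Vale.Agent.P062
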