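import Vale.Agent.P062.Checker

/-!
# P062: symmetry, and covering every first reply of Breaker by a few proved pairs
-/

namespace Vale.Agent.P062

open Finset

/-- The first move of Maker. -/
def centre : Cell := gridCell 136

/-- The number of the first move, as a set of cells. -/
def centreMask : ℕ := Nat.shiftLeft 1 (perm 136)

/-- The eight symmetries fixing the first move. -/
def sym (g : ℕ) (p : Cell) : Cell :=
  centre + signedPerm (g.testBit 0) (if g.testBit 1 then -1 else 1) (if g.testBit 2 then -1 else 1)
    (p - centre)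

lemma signedPerm_comp (s s' : Bool) (a b a' b' : ℤ) (p : Cell) :
    signedPerm s a b (signedPerm s' a' b' p) =
      signedPerm (s != s') (if s then a * b' else a * a') (if s then b * a' else b * b') p := by
  cases s <;> cases s' <;> simp [signedPerm, mul_assoc]

lemma sym_centre (g : ℕ) : sym g centre = centre := by
  simp [sym, signedPerm]

lemma sym_bijective (g : ℕ) : Function.Bijective (sym g) := by
  constructor
  · intro p q h
    simp only [sym, signedPerm, centre] at h
    revert h
    cases g.testBit 0 <;> cases g.testBit 1 <;> cases g.testBit 2 <;> intro h <;>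
      simp [Prod.ext_iff] at h <;> exact Prod.ext (by omega) (by omega)
  · intro q
    refine ⟨centre + if g.testBit 0 then
        ((if g.testBit 2 then -1 else 1) * (q - centre).2, (if g.testBit 1 then -1 else 1) * (q - centre).1)
      else ((if g.testBit 1 then -1 else 1) * (q - centre).1,
        (if g.testBit 2 then -1 else 1) * (q - centre).2), ?_⟩
    simp only [sym, signedPerm, centre]
    cases g.testBit 0 <;> cases g.testBit 1 <;> cases g.testBit 2 <;> simp [Prod.ext_iff]

/-- A symmetry carries copies of Snaky to copies. -/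
lemma HasCopy.map {P : Set Cell} (h : HasCopy P) (g : ℕ) : HasCopy (sym g '' P) := by
  obtain ⟨t, s', a', b', ha', hb', hP⟩ := h
  refine ⟨sym g t, g.testBit 0 != s',
    (if g.testBit 0 then (if g.testBit 1 then -1 else 1) * b'
      else (if g.testBit 1 then -1 else 1) * a'),
    (if g.testBit 0 then (if g.testBit 2 then -1 else 1) * a'
      else (if g.testBit 2 then -1 else 1) * b'), ?_, ?_, fun p hp => ⟨_, hP p hp, ?_⟩⟩
  · rcases ha' with rfl | rfl <;> rcases hb' with rfl | rfl <;> split_ifs <;> simp
  · rcases ha' with rfl | rfl <;> rcases hb' with rfl | rfl <;> split_ifs <;> simp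
  · rw [← signedPerm_comp]
    simp only [sym, signedPerm]
    cases g.testBit 0 <;> cases g.testBit 1 <;> cases g.testBit 2 <;> cases s' <;>
      simp [Prod.ext_iff] <;> first | (constructor <;> ring) | ring

lemma Win.map {P Q : Finset Cell} (h : Win P Q) (g : ℕ) :
    Win (P.image (sym g)) (Q.image (sym g)) := by
  have hinj := (sym_bijective g).1
  induction h with
  | now hP => exact Win.now (by rw [coe_image]; exact hP.map g)
  | @move P Q c hcP hcQ _ ih =>
    refine Win.move (sym g c) (by simpa [hinj.eq_iff] using hcP) (by simpa [hinj.eq_iff] using hcQ)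
      fun b hbP hbQ => ?_
    obtain ⟨b', rfl⟩ := (sym_bijective g).2 b
    have := ih b' (fun e => hbP (by rw [← image_insert]; exact mem_image_of_mem _ e))
      (fun e => hbQ (mem_image_of_mem _ e))
    rwa [image_insert, image_insert] at this

/-- The witness `(i, k, g, j)`: bit `i` is the image of cell `j` under the symmetry `g`, and cell
`j` is outside the zone of pair `k`. -/
def witnessOk (Z : List ℕ) (w : ℕ × ℕ × ℕ × ℕ) : Bool :=
  decide (w.2.1 < Z.length) && decide (sym w.2.2.1 (gridCell w.2.2.2) = cell w.1) &&
    !(Z.getD w.2.1 0).testBit (perm w.2.2.2)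

/-- Every possible first reply of Breaker is outside some image of a zone in `z₀ :: Z`. -/
def cover (z₀ : ℕ) (Z : List ℕ) (W : List (ℕ × ℕ × ℕ × ℕ)) (Bad : List Cell) : Bool :=
  decide (z₀ < 2 ^ 256) && (List.range 256).all fun i =>
    !z₀.testBit i || Nat.beq i (perm 136) || decide (cell i ∈ Bad) || W.any fun w => Nat.beq w.1 i && witnessOk (z₀ :: Z) w

lemma win_of_wpair {z : ℕ} (h : WPair centreMask z) (b : Cell) (hb : b ≠ centre)
    (hz : ∀ i, z.testBit i = true → cell i ≠ b) : Win {centre} {b} := by
  refine h {centre} {b} (by simpa using hb.symm) (fun i hi => ?_) fun i hi hQ => hz i hi (by simpa using hQ)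
  rw [centreMask, Nat.shiftLeft_eq', Nat.one_shiftLeft, Nat.testBit_two_pow] at hi
  have : perm 136 = i := of_decide_eq_true hi
  simp [← this, cell_perm, centre]

/-- Every first reply outside `Bad` is covered by an image of a zone in `z₀ :: Z`. -/
lemma win_of_cover {z₀ : ℕ} {Z : List ℕ} {W : List (ℕ × ℕ × ℕ × ℕ)} {Bad : List Cell}
    (hz₀ : WPair centreMask z₀) (hZ : ∀ z ∈ Z, WPair centreMask z)
    (h : cover z₀ Z W Bad = true) (b : Cell) (hb : b ∉ ({centre} : Finset Cell))
    (hbad : b ∉ Bad) : Win {centre} {b} := by
  have hb' : b ≠ centre := by simpa using hb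
  by_cases h0 : ∀ i, z₀.testBit i = true → cell i ≠ b
  · exact win_of_wpair hz₀ b hb' h0
  push Not at h0
  obtain ⟨i, hi, rfl⟩ := h0
  simp only [cover, Bool.and_eq_true, decide_eq_true_eq, List.all_eq_true, List.mem_range] at h
  have hi256 : i < 256 := by
    by_contra hc
    push Not at hc
    rw [Nat.testBit_lt_two_pow (h.1.trans_le (Nat.pow_le_pow_right (by norm_num) hc))] at hi
    exact absurd hi (by simp)
  have h2 := h.2 i hi256
  simp only [hi, Bool.not_true, Bool.false_or, Bool.or_eq_true, List.any_eq_true, Bool.and_eq_true,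
    witnessOk, decide_eq_true_eq, Bool.not_eq_true'] at h2
  rcases h2 with (h2 | h2) | ⟨⟨i', k, g, j⟩, -, h3, ⟨⟨hk, hs⟩, hj⟩⟩
  · exact absurd (by rw [Nat.eq_of_beq_eq_true h2, cell_perm, centre]) hb'
  · exact absurd h2 hbad
  obtain rfl : i' = i := Nat.eq_of_beq_eq_true h3
  set z := (z₀ :: Z).getD k 0 with hzdef
  have hw : WPair centreMask z := by
    have hmem : z ∈ z₀ :: Z := by
      rw [hzdef, List.getD_eq_getElem _ _ hk]; exact List.getElem_mem _
    rcases List.mem_cons.1 hmem with e | hmem
    · exact e ▸ hz₀
    · exact hZ z hmem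
  have hne : gridCell j ≠ centre := fun e => hb' (by rw [← hs]; simp only [e, sym_centre])
  have hwin := (win_of_wpair hw (gridCell j) hne fun l hl e => ?_).map g
  · simpa [sym_centre, hs] using hwin
  · rw [← cell_perm] at e
    rw [cell_injective e, hj] at hl
    exact absurd hl (by simp)

/-- If Maker wins after its first move at the centre against every first reply, by pairs with the
zones `z₀ :: Z`, then Maker has a winning strategy. -/
theorem strategy_of_cover {z₀ : ℕ} {Z : List ℕ} {W : List (ℕ × ℕ × ℕ × ℕ)}
    (hz₀ : WPair centreMask z₀) (hZ : ∀ z ∈ Z, WPair centreMask z)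
    (h : cover z₀ Z W [] = true) : MakerHasWinningStrategy := by
  refine Win.strategy (Win.move centre (notMem_empty _) (notMem_empty _) fun b hb _ => ?_)
  simpa using win_of_cover hz₀ hZ h b (by simpa using hb) (List.not_mem_nil)

end Vale.Agent.P062
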