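import Mathlib.Data.Int.Basic
import Mathlib.Data.Finset.Insert
import Mathlib.Data.Set.Operations
import Mathlib.Algebra.Group.Prod
import Mathlib.Algebra.Ring.Int.Defs

/-!
# P062: the achievement game for Snaky
-/

namespace Vale.Agent.P062

/-- A cell of the square grid, indexed by its lower-left corner. -/
abbrev Cell := ℤ × ℤ

/-- The hexomino Snaky. -/
def snaky : Finset Cell := {(0, 0), (1, 0), (2, 0), (3, 0), (3, 1), (4, 1)}

/-- The signed permutation given by `swap` and the two signs. -/
def signedPerm (swap : Bool) (s₁ s₂ : ℤ) (p : Cell) : Cell :=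
  if swap then (s₁ * p.2, s₂ * p.1) else (s₁ * p.1, s₂ * p.2)

/-- The set contains all cells of some allowed copy of Snaky. -/
def HasCopy (P : Set Cell) : Prop :=
  ∃ (t : Cell) (swap : Bool) (s₁ s₂ : ℤ), (s₁ = 1 ∨ s₁ = -1) ∧ (s₂ = 1 ∨ s₂ = -1) ∧
    ∀ p ∈ snaky, t + signedPerm swap s₁ s₂ p ∈ P

/-- Maker's move in turn `i` when following `σ`: a function of the earlier moves of Breaker. -/
def makerMove (σ : List Cell → Cell) (b : ℕ → Cell) (i : ℕ) : Cell :=
  σ ((List.range i).map b)

/-- Breaker never claims a cell that is already claimed. -/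
def BreakerLegal (σ : List Cell → Cell) (b : ℕ → Cell) : Prop :=
  ∀ i, (∀ j ≤ i, b i ≠ makerMove σ b j) ∧ ∀ j < i, b i ≠ b j

/-- Maker, moving first on the empty board, can force a copy of Snaky in finitely many turns. -/
def MakerHasWinningStrategy : Prop :=
  ∃ σ : List Cell → Cell, ∀ b : ℕ → Cell, BreakerLegal σ b →
    ∃ n, (∀ i < n, ∀ j < i, makerMove σ b i ≠ makerMove σ b j ∧ makerMove σ b i ≠ b j) ∧
      HasCopy {x | ∃ i < n, makerMove σ b i = x}

end Vale.Agent.P062
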