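import Vale.Agent.P062.Defs
import Mathlib.Data.List.Basic
import Mathlib.Tactic

/-!
# P062: from well-founded winning positions to a strategy
-/

namespace Vale.Agent.P062

open Finset

/-- Maker, to move, wins from the position with cells `P` of Maker and `Q` of Breaker. -/
inductive Win : Finset Cell → Finset Cell → Prop
  | now {P Q : Finset Cell} : HasCopy (P : Set Cell) → Win P Q
  | move {P Q : Finset Cell} (c : Cell) : c ∉ P → c ∉ Q →
      (∀ b, b ∉ insert c P → b ∉ Q → Win (insert c P) (insert b Q)) → Win P Q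

lemma HasCopy.mono {P P' : Set Cell} (h : HasCopy P) (hP : P ⊆ P') : HasCopy P' := by
  obtain ⟨t, s, s₁, s₂, h1, h2, h3⟩ := h
  exact ⟨t, s, s₁, s₂, h1, h2, fun p hp => hP (h3 p hp)⟩

lemma makerMove_succ (σ : List Cell → Cell) (b : ℕ → Cell) (i : ℕ) :
    makerMove σ b (i + 1) = makerMove (fun l => σ (b 0 :: l)) (fun j => b (j + 1)) i := by
  simp only [makerMove, List.range_succ_eq_map, List.map_cons, List.map_map, Function.comp_def]

/-- The statement proved by induction on a winning position. -/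
def Forces (P Q : Finset Cell) (σ : List Cell → Cell) : Prop :=
  ∀ b : ℕ → Cell, BreakerLegal σ b → (∀ i, b i ∉ P ∧ b i ∉ Q) →
    ∃ n, (∀ i < n, (makerMove σ b i ∉ P ∧ makerMove σ b i ∉ Q) ∧
        ∀ j < i, makerMove σ b i ≠ makerMove σ b j ∧ makerMove σ b i ≠ b j) ∧
      HasCopy ((P : Set Cell) ∪ {x | ∃ i < n, makerMove σ b i = x})

lemma Win.forces {P Q : Finset Cell} (h : Win P Q) : ∃ σ, Forces P Q σ := by
  induction h with
  | now hP =>
    exact ⟨fun _ => (0, 0), fun b _ _ => ⟨0, fun i hi => absurd hi (Nat.not_lt_zero i),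
      hP.mono Set.subset_union_left⟩⟩
  | @move P Q c hcP hcQ _ ih =>
    classical
    choose! s hs using ih
    refine ⟨fun l => match l with | [] => c | x :: l => s x l, fun b hb hfree => ?_⟩
    set σ : List Cell → Cell := fun l => match l with | [] => c | x :: l => s x l with hσ
    have h0 : makerMove σ b 0 = c := rfl
    have hsucc : ∀ i, makerMove σ b (i + 1) = makerMove (s (b 0)) (fun j => b (j + 1)) i :=
      fun i => makerMove_succ σ b i
    have hb0 : b 0 ∉ insert c P := by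
      rw [mem_insert, not_or]
      exact ⟨h0 ▸ (hb 0).1 0 le_rfl, (hfree 0).1⟩
    have hlegal : BreakerLegal (s (b 0)) (fun j => b (j + 1)) := fun i => by
      refine ⟨fun j hj => ?_, fun j hj => (hb (i + 1)).2 (j + 1) (by omega)⟩
      rw [← hsucc]
      exact (hb (i + 1)).1 (j + 1) (by omega)
    obtain ⟨n, hn, hcopy⟩ := hs (b 0) hb0 (hfree 0).2 (fun j => b (j + 1)) hlegal fun i => by
      simp only [mem_insert, not_or]
      exact ⟨⟨h0 ▸ (hb (i + 1)).1 0 (Nat.zero_le _), (hfree (i + 1)).1⟩,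
        (hb (i + 1)).2 0 (Nat.succ_pos i), (hfree (i + 1)).2⟩
    refine ⟨n + 1, fun i hi => ?_, hcopy.mono ?_⟩
    · rcases i with _ | i
      · rw [h0]; exact ⟨⟨hcP, hcQ⟩, fun j hj => absurd hj (Nat.not_lt_zero j)⟩
      obtain ⟨⟨h1, h2⟩, h3⟩ := hn i (by omega)
      simp only [mem_insert, not_or] at h1 h2
      rw [hsucc]
      refine ⟨⟨h1.2, h2.2⟩, fun j hj => ?_⟩
      rcases j with _ | j
      · exact ⟨h0 ▸ h1.1, h2.1⟩
      · rw [hsucc]; exact h3 j (by omega)
    · rintro x (hx | ⟨i, hi, rfl⟩)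
      · rcases mem_insert.1 (Finset.mem_coe.1 hx) with rfl | hx
        · exact Or.inr ⟨0, Nat.succ_pos n, h0⟩
        · exact Or.inl hx
      · exact Or.inr ⟨i + 1, by omega, hsucc i⟩

/-- A winning empty position gives a winning strategy. -/
theorem Win.strategy (h : Win ∅ ∅) : MakerHasWinningStrategy := by
  obtain ⟨σ, hσ⟩ := h.forces
  refine ⟨σ, fun b hb => ?_⟩
  obtain ⟨n, hn, hcopy⟩ := hσ b hb fun i => ⟨Finset.notMem_empty _, Finset.notMem_empty _⟩
  refine ⟨n, fun i hi => (hn i hi).2, hcopy.mono ?_⟩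
  simp

/-- Winning positions after the first move and every reply outside `Bad` give one strategy. -/
theorem strategy_except (c : Cell) (Bad : List Cell)
    (h : ∀ b : Cell, b ∉ ({c} : Finset Cell) → b ∉ Bad → Win {c} {b}) :
    ∃ σ : List Cell → Cell, σ [] = c ∧ ∀ b : ℕ → Cell, BreakerLegal σ b → b 0 ∉ Bad →
      ∃ n, (∀ i < n, ∀ j < i, makerMove σ b i ≠ makerMove σ b j ∧ makerMove σ b i ≠ b j) ∧
        HasCopy {x | ∃ i < n, makerMove σ b i = x} := by
  classical
  have h' : ∀ x, ∃ s, x ∉ ({c} : Finset Cell) → x ∉ Bad → Forces {c} {x} s := fun x => by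
    by_cases hx : x ∉ ({c} : Finset Cell) ∧ x ∉ Bad
    · exact (h x hx.1 hx.2).forces.imp fun s hs _ _ => hs
    · exact ⟨fun _ => c, fun h1 h2 => absurd ⟨h1, h2⟩ hx⟩
  choose s hs using h'
  refine ⟨fun l => match l with | [] => c | x :: l => s x l, rfl, fun b hb hbad => ?_⟩
  set σ : List Cell → Cell := fun l => match l with | [] => c | x :: l => s x l with hσ
  have h0 : makerMove σ b 0 = c := rfl
  have hsucc : ∀ i, makerMove σ b (i + 1) = makerMove (s (b 0)) (fun j => b (j + 1)) i :=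
    fun i => makerMove_succ σ b i
  have hb0 : b 0 ∉ ({c} : Finset Cell) := by simpa [h0] using (hb 0).1 0 le_rfl
  have hlegal : BreakerLegal (s (b 0)) (fun j => b (j + 1)) := fun i => by
    refine ⟨fun j hj => ?_, fun j hj => (hb (i + 1)).2 (j + 1) (by omega)⟩
    rw [← hsucc]
    exact (hb (i + 1)).1 (j + 1) (by omega)
  obtain ⟨n, hn, hcopy⟩ := hs (b 0) hb0 hbad (fun j => b (j + 1)) hlegal fun i => by
    simp only [mem_singleton]
    exact ⟨h0 ▸ (hb (i + 1)).1 0 (Nat.zero_le _), (hb (i + 1)).2 0 (Nat.succ_pos i)⟩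
  refine ⟨n + 1, fun i hi j hj => ?_, hcopy.mono ?_⟩
  · rcases i with _ | i
    · exact absurd hj (Nat.not_lt_zero j)
    obtain ⟨⟨h1, h2⟩, h3⟩ := hn i (by omega)
    simp only [mem_singleton] at h1 h2
    rcases j with _ | j
    · exact ⟨by rw [hsucc, h0]; exact h1, by rw [hsucc]; exact h2⟩
    · rw [hsucc, hsucc]; exact h3 j (by omega)
  · rintro x (hx | ⟨i, hi, rfl⟩)
    · exact ⟨0, Nat.succ_pos n, by rw [Finset.coe_singleton] at hx; rw [h0]; exact hx.symm⟩
    · exact ⟨i + 1, by omega, hsucc i⟩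

end Vale.Agent.P062
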