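import Vale.Agent.P062.CertB22
import Vale.Agent.P062.CertB20
import Vale.Agent.P062.CertB21
import Vale.Agent.P062.CertB30
import Vale.Agent.P062.CertB31
import Vale.Agent.P062.CertB11
import Vale.Agent.P062.CertB10

/-! P062: the certificates and the first replies they cover -/

namespace Vale.Agent.P062

/-- Maker wins the achievement game for Snaky in the plane. -/
theorem makerWins : MakerHasWinningStrategy :=
  strategy_of_cover (W := [(13, 0, 3, 146),
      (14, 0, 1, 162),
      (18, 0, 3, 163),
      (19, 0, 5, 157),
      (23, 0, 4, 197),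
      (24, 3, 5, 140),
      (25, 0, 4, 203),
      (28, 0, 2, 92),
      (29, 4, 7, 155),
      (30, 0, 4, 186),
      (33, 0, 2, 109),
      (34, 0, 6, 170),
      (35, 2, 5, 154),
      (36, 0, 4, 172),
      (38, 0, 2, 126),
      (39, 4, 6, 155),
      (40, 6, 5, 137),
      (41, 4, 4, 155),
      (44, 3, 2, 140),
      (45, 6, 2, 137),
      (46, 1, 0, 138),
      (49, 0, 2, 157),
      (50, 2, 2, 154),
      (51, 5, 0, 153),
      (52, 4, 0, 156),
      (55, 0, 2, 171),
      (56, 1, 1, 138),
      (60, 0, 2, 188),
      (61, 4, 3, 155),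
      (66, 0, 2, 202),
      (67, 4, 1, 156),
      (98, 0, 3, 162),
      (99, 0, 1, 146),
      (104, 0, 4, 216),
      (108, 0, 3, 196),
      (109, 4, 7, 156),
      (110, 0, 4, 202),
      (113, 0, 1, 53),
      (114, 0, 6, 186),
      (115, 4, 5, 155),
      (118, 0, 2, 110),
      (119, 0, 6, 171),
      (120, 1, 5, 138),
      (121, 0, 4, 171),
      (124, 4, 6, 156),
      (125, 5, 6, 153),
      (126, 2, 4, 154),
      (129, 0, 2, 141),
      (130, 1, 2, 138),
      (131, 6, 0, 137),
      (132, 3, 0, 140),
      (135, 4, 2, 155),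
      (136, 6, 1, 137),
      (137, 4, 0, 155),
      (140, 0, 2, 172),
      (141, 2, 3, 154),
      (145, 0, 1, 59),
      (146, 0, 2, 186),
      (147, 4, 1, 155),
      (152, 3, 1, 140),
      (157, 0, 1, 125),
      (184, 0, 4, 232),
      (189, 0, 5, 125),
      (190, 0, 1, 163),
      (193, 0, 1, 52),
      (194, 0, 6, 202),
      (195, 4, 5, 156),
      (196, 0, 1, 196),
      (199, 0, 6, 187),
      (200, 3, 5, 139),
      (201, 0, 4, 187),
      (204, 0, 6, 172),
      (205, 2, 7, 154),
      (206, 0, 4, 170),
      (209, 0, 2, 125),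
      (210, 2, 6, 154),
      (211, 5, 4, 153),
      (212, 4, 4, 156),
      (214, 0, 2, 142),
      (215, 3, 2, 139),
      (217, 3, 0, 139),
      (220, 4, 2, 156),
      (221, 5, 2, 153),
      (222, 2, 0, 154),
      (226, 0, 2, 170),
      (227, 2, 1, 154),
      (231, 0, 2, 187),
      (232, 3, 1, 139),
      (237, 4, 3, 156),
      (243, 0, 1, 157)])
    (Z := [CertB20.zone, CertB21.zone, CertB30.zone, CertB31.zone, CertB11.zone, CertB10.zone])
    CertB22.pair
    (by
        simp only [List.forall_mem_cons, List.not_mem_nil, IsEmpty.forall_iff, implies_true, and_true]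
        exact ⟨CertB20.pair,
          CertB21.pair,
          CertB30.pair,
          CertB31.pair,
          CertB11.pair,
          CertB10.pair⟩)
    (by decide +kernel)

end Vale.Agent.P062
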